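import Vale.Agent.P116.KB.H720.Cells2
import Vale.Agent.P116.KB.HDef
import Vale.Agent.P116.Cl.Dset905

/-!
# P116, block [7]: the package of 720 with a small energy constant

`pack`: for honest functions on `w` and every `A > 0` there is a region `un d₀ D` around `K ∩ w`
such that the energy sums over the fine cells are at most `A`, in the exact form of the hypotheses
of `KB.Grid841.sel`.
-/

open Set Filter Topology Metric Bornology MeasureTheory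
open scoped ENNReal

namespace Vale.Agent.P116.AD.H788

open H906
open KB720

lemma Maj.mono {G G' : Set ℂ} {u ρ : ℂ → ℝ} (h : Maj G u ρ) (hs : G' ⊆ G) : Maj G' u ρ :=
  fun z z' hz => h z z' (hz.trans hs)

/-- a small neighbourhood of `K ∩ w` with small energy -/
theorem exists_small {ι : Type*} [Finite ι] {K w : Set ℂ} (hK : IsCompact K) (hf : Full K)
    (hw : IsCompact w) (hfr : Disjoint (frontier w) K) {ρ : ι → ℂ → ℝ}
    (hen : ∀ i, ∫⁻ z in w \ K, ENNReal.ofReal (ρ i z ^ 2) < ⊤) {ε : ℝ≥0∞} (hε : 0 < ε) :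
    ∃ w', IsCompact w' ∧ w' ⊆ w ∧ K ∩ w' = K ∩ w ∧ K ∩ w' ⊆ interior w' ∧
      ∀ i, ∫⁻ z in w' \ K, (ENNReal.ofReal (ρ i z ^ 2) + 1) ≤ ε := by
  have hfin : ∀ i, ∫⁻ z in w \ K, (ENNReal.ofReal (ρ i z ^ 2) + 1) ≠ ⊤ := by
    intro i
    rw [lintegral_add_right _ measurable_const, setLIntegral_one]
    exact ENNReal.add_ne_top.2 ⟨(hen i).ne,
      ((measure_mono sdiff_subset).trans_lt hw.measure_lt_top).ne⟩
  have h1 : ∀ᶠ k in atTop, ∀ i,
      ∫⁻ z in (lev K k ∩ w) \ K, (ENNReal.ofReal (ρ i z ^ 2) + 1) < ε := by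
    rw [eventually_all]
    exact fun i => (Cl.tendsto_energy hK hf hw.isClosed (hfin i)).eventually_lt_const hε
  obtain ⟨k, hk⟩ := h1.exists
  refine ⟨lev K k ∩ w, (isCompact_lev hK k).inter_right hw.isClosed, inter_subset_right, ?_, ?_,
    fun i => (hk i).le⟩
  · ext z
    exact ⟨fun h => ⟨h.1, h.2.2⟩, fun h => ⟨h.1, subset_lev k h.1, h.2⟩⟩
  · rintro z ⟨hzK, -, hzw⟩
    rw [interior_inter]
    refine ⟨?_, ?_⟩
    · exact Cl.lev_subset_interior (Nat.lt_succ_self k) (subset_lev _ hzK)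
    · by_contra hni
      exact disjoint_left.1 hfr ⟨subset_closure hzw, hni⟩ hzK

/-- boundary cells are in outer coarse cells -/
lemma bdc_cell {d₀ : ℝ} (hd : 0 < d₀) {D : Finset (ℤ × ℤ)} {k : ℕ} {v : ℤ × ℤ}
    (hv : v ∈ bdc d₀ D k) : ∃ V, V ∉ D ∧ (cell d₀ V ∩ un d₀ D).Nonempty ∧
      cell (d₀ / 2 ^ k) v ⊆ cell d₀ V := by
  obtain ⟨⟨z, hz, hzD⟩, hnot⟩ := hv
  have h1 := cell_subset_par hd k v
  refine ⟨par k v, fun h => hnot ?_, ⟨z, h1 hz, hzD⟩, h1⟩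
  exact h1.trans (subset_biUnion_of_mem (u := fun V => cell d₀ V) (show par k v ∈ (D : Set _) from h))

/-- the conclusion of `pack` with energy constant `A` -/
def PackC {ι : Type*} [Fintype ι] [DecidableEq ι] (K w : Set ℂ) (u ρ : ι → ℂ → ℝ) (A : ℝ) : Prop :=
    ∃ d₀ > 0, ∃ D : Finset (ℤ × ℤ), (∀ V, V ∈ D ↔ (cell d₀ V ∩ (K ∩ w)).Nonempty) ∧
      K ∩ w ⊆ interior (un d₀ D) ∧ un d₀ D ⊆ interior w ∧
      (∀ V, (cell d₀ V ∩ un d₀ D).Nonempty → cell d₀ V ⊆ interior w) ∧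
      (∀ V, V ∉ D → (cell d₀ V ∩ un d₀ D).Nonempty → Disjoint (cell d₀ V) K) ∧
      ∃ TT BB : ℕ → Finset (ℤ × ℤ),
        (∀ k v, v ∈ TT k ↔ v ∈ Tk K ρ d₀ D k) ∧ (∀ k v, v ∈ BB k ↔ v ∈ bdc d₀ D k) ∧
        (∀ k, ∀ t ∈ TT k, ∀ i, clo (u i) (d₀ / 2 ^ k) t ≤ chi (u i) (d₀ / 2 ^ k) t) ∧
        (∀ k, ∑ t ∈ TT k, ∑ i, ∑ j ∈ Finset.univ.erase i,
          (chi (u i) (d₀ / 2 ^ k) t - clo (u i) (d₀ / 2 ^ k) t) *
            (chi (u j) (d₀ / 2 ^ k) t - clo (u j) (d₀ / 2 ^ k) t) ≤ A) ∧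
        (∀ k, ∀ t ∈ BB k, ∀ i, clo (u i) (d₀ / 2 ^ k) t ≤ chi (u i) (d₀ / 2 ^ k) t) ∧
        ∃ Bd, 0 ≤ Bd ∧ ∀ k, ∑ t ∈ BB k, ∑ i,
          (chi (u i) (d₀ / 2 ^ k) t - clo (u i) (d₀ / 2 ^ k) t) ≤ Bd

/-- the package on a part `w'` of `w` -/
theorem packA {ι : Type*} [Fintype ι] [DecidableEq ι] {K w w' : Set ℂ} (hK : IsCompact K)
    (hw : IsClosed w) (hw'w : w' ⊆ w) (hKw : K ∩ w' = K ∩ w) (hKw' : K ∩ w' ⊆ interior w')
    {u ρ : ι → ℂ → ℝ}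
    (hu : ∀ i, ContinuousOn (u i) Kᶜ) (hρ : ∀ i, ContinuousOn (ρ i) Kᶜ)
    (hmaj : ∀ i, KF.UGr Kᶜ (u i) (ρ i))
    (hfin : ∀ i, ∫⁻ z in w' \ K, (ENNReal.ofReal (ρ i z ^ 2) + 1) ≠ ⊤) {q : ℝ}
    (hsm : ∀ i, (∫⁻ z in w' \ K, (ENNReal.ofReal (ρ i z ^ 2) + 1)).toReal ≤ q) :
    PackC K w u ρ (2 * Fintype.card ι ^ 2 * q) := by
  classical
  have hsub : w' \ K ⊆ Kᶜ := fun z hz => hz.2
  obtain ⟨d₀, hd, D, h1, h2, h3, h4, h5, Bd, h6⟩ := package (u := u)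
    (hKw ▸ (hK.inter_right hw) : IsCompact (K ∩ w')) hKw'
    (fun i => (hρ i).mono hsub)
    (fun i z z' hz => hmaj i z z' (hz.trans hsub)) hfin
  rw [hKw] at h1 h2
  have hint : interior w' ⊆ interior w := interior_mono hw'w
  have hDw : un d₀ D ⊆ interior w := by
    refine iUnion₂_subset fun V hV => (h3 V ?_).trans hint
    obtain ⟨z, hz⟩ := cell_nonempty hd.le V
    exact ⟨z, hz, mem_iUnion₂.2 ⟨V, hV, hz⟩⟩
  have hp : ∀ k : ℕ, 0 < d₀ / 2 ^ k := fun k => by positivity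
  have hbf : ∀ k, (bdc d₀ D k).Finite := fun k =>
    (Finset.finite_toSet _).subset (bdc_subset hd D k)
  have hcT : ∀ k, ∀ t ∈ Tk K ρ d₀ D k, ∀ i, ContinuousOn (u i) (cell (d₀ / 2 ^ k) t) :=
    fun k t ht i => (hu i).mono fun z hz => (ht.1 hz).2
  have hcB : ∀ k, ∀ t ∈ bdc d₀ D k, ∀ i, ContinuousOn (u i) (cell (d₀ / 2 ^ k) t) := by
    intro k t ht i
    obtain ⟨V, hV, hne, hs⟩ := bdc_cell hd ht
    exact (hu i).mono fun z hz => disjoint_left.1 (h4 V hV hne) (hs hz)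
  refine ⟨d₀, hd, D, h1, h2, hDw, fun V hV => (h3 V hV).trans hint, h4,
    fun k => (finite_Tk K ρ hd D k).toFinset, fun k => (hbf k).toFinset,
    fun k v => Set.Finite.mem_toFinset _, fun k v => Set.Finite.mem_toFinset _, ?_, ?_, ?_, Bd,
    ?_, ?_⟩
  · intro k t ht i
    exact clo_le_chi (hp k).le (hcT k t ((Set.Finite.mem_toFinset _).1 ht) i)
  · intro k
    refine le_trans (le_of_eq ?_) ((h5 k (finite_Tk K ρ hd D k).toFinset
      fun v hv => (Set.Finite.mem_toFinset _).1 hv).trans ?_)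
    · refine Finset.sum_congr rfl fun t ht => Finset.sum_congr rfl fun i _ => ?_
      have hc := hcT k t ((Set.Finite.mem_toFinset _).1 ht)
      refine Finset.sum_congr rfl fun j _ => ?_
      rw [chi_sub_clo (hc i), chi_sub_clo (hc j)]
    · have e2 : ∑ i, (∫⁻ z in w' \ K, (ENNReal.ofReal (ρ i z ^ 2) + 1)).toReal ≤
          Fintype.card ι * q := by
        refine (Finset.sum_le_sum fun i _ => hsm i).trans_eq ?_
        rw [Finset.sum_const, nsmul_eq_mul, Finset.card_univ]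
      have e4 : (0:ℝ) ≤ Fintype.card ι := Nat.cast_nonneg _
      nlinarith [mul_le_mul_of_nonneg_left e2 e4]
  · intro k t ht i
    exact clo_le_chi (hp k).le (hcB k t ((Set.Finite.mem_toFinset _).1 ht) i)
  · refine le_trans ?_ (h6 0 (hbf 0).toFinset fun v hv => (Set.Finite.mem_toFinset _).1 hv)
    exact Finset.sum_nonneg fun t _ => Finset.sum_nonneg fun i _ => oc_nonneg _ _ _
  · intro k
    refine le_trans (le_of_eq ?_) (h6 k (hbf k).toFinset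
      fun v hv => (Set.Finite.mem_toFinset _).1 hv)
    refine Finset.sum_congr rfl fun t ht => Finset.sum_congr rfl fun i _ => ?_
    rw [chi_sub_clo (hcB k t ((Set.Finite.mem_toFinset _).1 ht) i)]

lemma fin_add_one {K w : Set ℂ} {ρ : ℂ → ℝ} (hw : IsCompact w)
    (hen : ∫⁻ z in w \ K, ENNReal.ofReal (ρ z ^ 2) < ⊤) :
    ∫⁻ z in w \ K, (ENNReal.ofReal (ρ z ^ 2) + 1) ≠ ⊤ := by
  rw [lintegral_add_right _ measurable_const, setLIntegral_one]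
  exact ENNReal.add_ne_top.2 ⟨hen.ne,
    ((measure_mono sdiff_subset).trans_lt hw.measure_lt_top).ne⟩

/-- **the package in the form of the hypotheses of `sel`** (energy constant `2 card² A`) -/
theorem packE {ι : Type*} [Fintype ι] [DecidableEq ι] {K w : Set ℂ} (hK : IsCompact K)
    (hw : IsCompact w) (hfr : Disjoint (frontier w) K) {u ρ : ι → ℂ → ℝ}
    (hu : ∀ i, ContinuousOn (u i) Kᶜ) (hρ : ∀ i, ContinuousOn (ρ i) Kᶜ)
    (hmaj : ∀ i, KF.UGr Kᶜ (u i) (ρ i))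
    (hen : ∀ i, ∫⁻ z in w \ K, ENNReal.ofReal (ρ i z ^ 2) < ⊤) {A : ℝ}
    (hA : ∀ i, (∫⁻ z in w \ K, (ENNReal.ofReal (ρ i z ^ 2) + 1)).toReal ≤ A) :
    PackC K w u ρ (2 * Fintype.card ι ^ 2 * A) := by
  refine packA hK hw.isClosed subset_rfl rfl ?_ hu hρ hmaj (fun i => fin_add_one hw (hen i)) hA
  rintro z ⟨hzK, hzw⟩
  by_contra hni
  exact disjoint_left.1 hfr ⟨subset_closure hzw, hni⟩ hzK

/-- **the package with a small energy constant**, in the form of the hypotheses of `sel` -/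
theorem pack {ι : Type*} [Fintype ι] [DecidableEq ι] {K w : Set ℂ} (hK : IsCompact K)
    (hf : Full K) (hw : IsCompact w) (hfr : Disjoint (frontier w) K) {u ρ : ι → ℂ → ℝ}
    (hu : ∀ i, ContinuousOn (u i) Kᶜ) (hρ : ∀ i, ContinuousOn (ρ i) Kᶜ)
    (hmaj : ∀ i, KF.UGr Kᶜ (u i) (ρ i))
    (hen : ∀ i, ∫⁻ z in w \ K, ENNReal.ofReal (ρ i z ^ 2) < ⊤) {A : ℝ} (hA : 0 < A) :
    PackC K w u ρ A := by
  classical
  set q : ℝ := A / (2 * Fintype.card ι ^ 2 + 1) with hq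
  have hq0 : 0 < q := by positivity
  obtain ⟨w', hw'c, hw'w, hKw, hKw', hsm⟩ := exists_small hK hf hw hfr hen
    (ε := ENNReal.ofReal q) (ENNReal.ofReal_pos.2 hq0)
  have h := packA (u := u) hK hw.isClosed hw'w hKw hKw' hu hρ hmaj
    (fun i => ((hsm i).trans_lt ENNReal.ofReal_lt_top).ne)
    (fun i => ENNReal.toReal_le_of_le_ofReal hq0.le (hsm i))
  have e3 : 2 * (Fintype.card ι : ℝ) ^ 2 * q ≤ A := by
    have : (2 * (Fintype.card ι : ℝ) ^ 2 + 1) * q = A := by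
      rw [hq]
      field_simp
    nlinarith
  obtain ⟨d₀, hd, D, h1, h2, h3, h4, h5, TT, BB, h6, h7, h8, h9, h10, h11⟩ := h
  exact ⟨d₀, hd, D, h1, h2, h3, h4, h5, TT, BB, h6, h7, h8, fun k => (h9 k).trans e3, h10, h11⟩

end Vale.Agent.P116.AD.H788
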